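import Vale.Agent.P183NK.Defs
import Vale.Agent.P183CH.Defs

/-!
The list of the classification of finite simple groups.
-/

namespace Vale.Agent.P183F

open Vale.Agent.P183NK Vale.Agent.P183CH

/-- `S` has order at most `c`, or is alternating, or is classical of dimension `> d`, or is of Lie
type for a Chevalley datum of degree at most `c`. -/
def Listed (d c : ℕ) (S : Type) [Group S] : Prop :=
  Nat.card S ≤ c ∨ IsAlt S ∨ IsClassical d S ∨ ∃ D : Chev, D.n ≤ c ∧ IsChev D S

/-- All nonabelian simple sections of `G` are listed. -/
def KGroup (d c : ℕ) (G : Type) [Group G] : Prop :=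
  ∀ (S : Type) [Group S], IsSimpleGroup S → (∃ a b : S, a * b ≠ b * a) → IsSection S G →
    Listed d c S

end Vale.Agent.P183F
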