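import Vale.Agent.P183F.Defs
import Vale.Agent.P183NC.Main
import Vale.Agent.P183PK.Main
import Vale.Agent.P183CH1B.Unif

/-!
The main theorem from the blocks.
-/

namespace Vale.Agent.P183F

open Vale.Agent.P183 Vale.Agent.P183A Vale.Agent.P183NK Vale.Agent.P183CH Vale.Agent.P183LT
  Vale.Agent.P183PK

theorem main_of {Ψ : ℕ → Fam} (hA : BlockAlt) (hC : BlockCl) (h1 : CH1M) (h2 : AbsLie Ψ)
    (hL : ∀ c : ℕ, ∃ n₀ : ℕ, BlockW fun S _ => Ψ c S ∧ n₀ < Nat.card S) :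
    ∃ d : ℕ, ∀ c : ℕ, ∃ (L : Type) (_ : Lattice L) (_ : Finite L) (_ : Nonempty L),
      (∀ (G : Type) [Group G] [Finite G] (H : Subgroup G), KGroup d c G →
        IsEmpty (L ≃o {K : Subgroup G // H ≤ K})) ∧
      (∀ A : FiniteAlgebra, (∀ (G : Type) [Group G], PolGroup A G → KGroup d c G) →
        IsEmpty (L ≃o A.Con)) ∧
      ((∀ (S : Type) [Group S] [Finite S], IsSimpleGroup S → (∃ a b : S, a * b ≠ b * a) →
        Listed d c S) → ¬ Representable L) := by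
  obtain ⟨d, hC⟩ := hC
  obtain ⟨n₁, hA⟩ := hA
  refine ⟨d, fun c => ?_⟩
  obtain ⟨c', n₂, h3⟩ := chev_unif h1 h2 c
  choose n₀ hL using hL
  obtain ⟨Λ, _, _, _, hΛ⟩ := not_asik (r := c' + 1 + 1 + 1)
    (Fin.cons (α := fun _ => Fam) (fun S _ => IsAlt S ∧ n₁ < Nat.card S)
      (Fin.cons (α := fun _ => Fam) (fun S _ => IsClassical d S) fun i S _ => Ψ i S ∧ n₀ i < Nat.card S))
    (Fin.forall_fin_succ.2 ⟨by exact hA.weak,
      Fin.forall_fin_succ.2 ⟨by exact hC.weak, fun i => by exact hL i⟩⟩)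
    (c + n₁ + n₂ + ∑ i : Fin (c' + 1), n₀ i)
  obtain ⟨K, _, _, _, hK, h⟩ := track Λ
  refine three (Φ := fun S _ => Listed d c S) hK fun ⟨G, _, _, H, hG, e⟩ =>
    hΛ (h _ ⟨G, inferInstance, inferInstance, H, fun S _ g1 g2 g3 => ?_, e⟩)
  by_cases hs : Nat.card S ≤ c + n₁ + n₂ + ∑ i : Fin (c' + 1), n₀ i
  · exact Or.inl hs
  rcases hG S g1 g2 g3 with h | h | h | h
  · omega
  · exact Or.inr ⟨0, h, by omega⟩
  · exact Or.inr ⟨Fin.succ 0, h⟩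
  · obtain ⟨i, hi, h4⟩ := h3 S g1 h (by omega)
    have := Finset.single_le_sum (f := fun i : Fin (c' + 1) => n₀ i) (fun _ _ => Nat.zero_le _)
      (Finset.mem_univ ⟨i, Nat.lt_succ_of_le hi⟩)
    exact Or.inr ⟨Fin.succ (Fin.succ ⟨i, Nat.lt_succ_of_le hi⟩), h4, lt_of_le_of_lt this (by omega)⟩

end Vale.Agent.P183F
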