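import Vale.Agent.P183F.Glue
import Vale.Agent.P183W5.Final
import Vale.Agent.P183W3.Glue
import Vale.Agent.P183CH1.Main
import Vale.Agent.P183CH3.Main
import Vale.Agent.P183CH4.Main
import Vale.Agent.P183BD.Glue
import Vale.Agent.P183BD.Lie2

/-!
The main theorem from the final step in one characteristic.
-/

namespace Vale.Agent.P183F

open Vale.Agent.P183 Vale.Agent.P183NK Vale.Agent.P183PK

theorem main_of_same (hs : SameChar) :
    ∃ d : ℕ, ∀ c : ℕ, ∃ (L : Type) (_ : Lattice L) (_ : Finite L) (_ : Nonempty L),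
      (∀ (G : Type) [Group G] [Finite G] (H : Subgroup G), KGroup d c G →
        IsEmpty (L ≃o {K : Subgroup G // H ≤ K})) ∧
      (∀ A : FiniteAlgebra, (∀ (G : Type) [Group G], PolGroup A G → KGroup d c G) →
        IsEmpty (L ≃o A.Con)) ∧
      ((∀ (S : Type) [Group S] [Finite S], IsSimpleGroup S → (∃ a b : S, a * b ≠ b * a) →
        Listed d c S) → ¬ Representable L) :=
  main_of P183AL.blockAlt (P183W3.blockCl_of_same P183W5.w5' hs) P183CH.ch1m
    (P183BD.absLie P183CH3.ch3t P183CH4.ch4t) P183BD.blockLie2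

end Vale.Agent.P183F
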