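import Vale.Agent.P183M.C2
import Vale.Agent.P183BR.Main
import Vale.Agent.P183K.Lift.Tow
import Vale.Agent.P183S1.S1
import Vale.Agent.P183S1.RM
import Vale.Agent.P183AS.Asm
import Vale.Agent.P183AU.NF
import Vale.Agent.P183AU.Lifts
import Vale.Agent.P183WD.Main
import Vale.Agent.P183ET.ET
import Vale.Agent.P183EQ.Eq
import Vale.Agent.P183HC.HC
import Vale.Agent.P183NP.NP
import Vale.Agent.P183NT.NT
import Vale.Agent.P183MG.MG
import Vale.Agent.P183SL.Main

/-!
The final step in one characteristic.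
-/

namespace Vale.Agent.P183F

theorem sameChar : P183NK.SameChar :=
  P183AS.asm P183BR.br P183K.Lift.tow P183S1.s1 P183S1.rm P183AU.lifts
    (P183M.core P183K.Lift.pp3 P183AU.nf P183WD.wd P183ET.et P183EQ.eq (P183HC.hc P183EQ.eq)
      P183NP.np P183SL.sl (P183NT.nt P183EQ.eq (P183HC.hc P183EQ.eq) P183NP.np) P183MG.mg)

end Vale.Agent.P183F
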